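import Crest.Agent.R182.V.Hm

/-! R182/V/Cov (owner helper36): covering estimates, quasi-isometries quasi-preserve volume. -/

set_option autoImplicit false
set_option linter.unusedVariables false
set_option linter.unusedSectionVars false
open Set Filter Topology MeasureTheory Crest.GroupTheory
open scoped Pointwise commutatorElement ENNReal

noncomputable section
namespace Crest.Agent.R182

section Gen
variable {G : Type*} [Group G] [MeasurableSpace G] [MeasurableMul₂ G] [MeasurableInv G] (μ ν : Measure G) [SFinite μ] [SFinite ν]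
  [μ.IsMulLeftInvariant] (H : Subgroup G)

/-- With `S = toMeasurable μ (A * B)`: for `u ∈ A`, `μ {x ∈ S | u⁻¹ * x ∈ B} ≥ μ B`, so `ν A * μ B ≤ ∫ μ {x ∈ S | u⁻¹ x ∈ B} dν(u) =
∫_S ν {u | u⁻¹ x ∈ B} dμ(x)` (`mul_meas_ge_le_lintegral₀`, `lintegral_lintegral_swap`), and `ν {u | u⁻¹ x ∈ B} ≤ ν (B * B⁻¹)`: the set is null if it
misses `H`, and is contained in `u₀ * (B * B⁻¹)` if it contains `u₀ ∈ H`. -/
theorem cov_le (hν : ∀ u ∈ H, MeasurePreserving (fun g => u * g) ν ν) (h0 : ν (H : Set G)ᶜ = 0) (A : Set G) {B : Set G}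
    (hB : MeasurableSet B) : ν A * μ B ≤ ν (B * B⁻¹) * μ (A * B) := by
  have hS := measurableSet_toMeasurable μ (A * B)
  have hR : MeasurableSet {p : G × G | p.2 ∈ toMeasurable μ (A * B) ∧ p.1⁻¹ * p.2 ∈ B} :=
    (measurable_snd hS).inter ((measurable_fst.inv.mul measurable_snd) hB)
  have h1 := mul_meas_ge_le_lintegral₀ (μ := ν) (measurable_measure_prodMk_left (ν := μ) hR).aemeasurable (μ B)
  rw [← Measure.prod_apply hR, Measure.prod_apply_symm hR] at h1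
  calc ν A * μ B ≤ _ := by
        rw [mul_comm]
        refine mul_le_mul_right (measure_mono fun u hu => ?_) _
        refine (measure_preimage_mul μ u⁻¹ B).symm.trans_le (measure_mono fun x hx => ⟨subset_toMeasurable _ _ ?_, hx⟩)
        exact ⟨u, hu, _, hx, mul_inv_cancel_left u x⟩
    _ ≤ _ := h1
    _ ≤ ∫⁻ x, (toMeasurable μ (A * B)).indicator (fun _ => ν (B * B⁻¹)) x ∂μ := by
        refine lintegral_mono fun x => ?_
        by_cases hx : x ∈ toMeasurable μ (A * B)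
        · rw [indicator_of_mem hx]
          by_cases h2 : ∃ u ∈ H, u⁻¹ * x ∈ B
          · obtain ⟨u, hu, h2⟩ := h2
            refine (measure_mono fun w hw => ?_).trans ((hν u⁻¹ (H.inv_mem hu)).measure_preimage_le _)
            exact ⟨_, h2, _, Set.inv_mem_inv.2 hw.2, by simp⟩
          · exact (measure_mono_null (fun w hw hH => h2 ⟨w, hH, hw.2⟩) h0).trans_le zero_le
        · exact (measure_mono_null (fun w hw => (hx hw.1).elim) measure_empty).trans_le zero_le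
    _ = _ := by rw [lintegral_indicator_const hS, measure_toMeasurable]

/-- With `S = toMeasurable ν (A * B)`, `T = toMeasurable μ (B⁻¹ * Q)`: for `x = a * q`, `{u ∈ S | u⁻¹ * x ∈ T} ⊇ a * B`, and
`∫ ν {u ∈ S | u⁻¹ x ∈ T} dμ(x) = ν S * μ T`. -/
theorem cov_ge (hν : ∀ u ∈ H, MeasurePreserving (fun g => u * g) ν ν) {A : Set G} (hA : A ⊆ H) (B Q : Set G) :
    μ (A * Q) * ν B ≤ ν (A * B) * μ (B⁻¹ * Q) := by
  have hS := measurableSet_toMeasurable ν (A * B)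
  have hR : MeasurableSet {p : G × G | p.1 ∈ toMeasurable ν (A * B) ∧ p.1⁻¹ * p.2 ∈ toMeasurable μ (B⁻¹ * Q)} :=
    (measurable_fst hS).inter ((measurable_fst.inv.mul measurable_snd) (measurableSet_toMeasurable μ _))
  have h1 := mul_meas_ge_le_lintegral₀ (μ := μ) (measurable_measure_prodMk_right (μ := ν) hR).aemeasurable (ν B)
  rw [← Measure.prod_apply_symm hR, Measure.prod_apply hR] at h1
  calc μ (A * Q) * ν B ≤ _ := by
        rw [mul_comm]
        refine mul_le_mul_right (measure_mono ?_) _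
        rintro _ ⟨a, ha, q, hq, rfl⟩
        refine (measure_mono fun b hb => ?_).trans ((hν a (hA ha)).measure_preimage_le _)
        exact ⟨subset_toMeasurable _ _ ⟨a, ha, b, hb, rfl⟩,
          subset_toMeasurable _ _ ⟨_, Set.inv_mem_inv.2 hb, q, hq, by simp [mul_assoc]⟩⟩
    _ ≤ _ := h1
    _ ≤ ∫⁻ u, (toMeasurable ν (A * B)).indicator (fun _ => μ (B⁻¹ * Q)) u ∂ν := by
        refine lintegral_mono fun u => ?_
        by_cases hu : u ∈ toMeasurable ν (A * B)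
        · rw [indicator_of_mem hu, ← measure_toMeasurable (B⁻¹ * Q), ← measure_preimage_mul μ u⁻¹ (toMeasurable μ _)]
          exact measure_mono fun x hx => hx.2
        · exact (measure_mono_null (fun w hw => (hu hw.1).elim) measure_empty).trans_le zero_le
    _ = _ := by rw [lintegral_indicator_const hS, measure_toMeasurable, mul_comm]

end Gen

namespace Model
variable {h k : ℕ} (M : Model h k) {U : Submodule ℝ (V h)}

theorem covb_le (ν : Measure M.G) [SFinite ν] [IsFiniteMeasureOnCompacts ν] (H : Subgroup M.G)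
    (hν : ∀ u ∈ H, MeasurePreserving (fun g => u * g) ν ν) (h0 : ν (H : Set M.G)ᶜ = 0) :
    ∃ D : ℝ≥0∞, D ≠ ⊤ ∧ ∀ A : Set M.G, ν A ≤ D * volume (A * M.ball 1) := by
  refine ⟨ν (M.ball 2) / volume (M.ball 1),
    ENNReal.div_ne_top (M.isCompact_ball' 2).measure_lt_top.ne M.volume_ball_ne_zero, fun A => ?_⟩
  have h1 := cov_le volume ν H hν h0 A (M.measurableSet_ball 1)
  have h2 : ν (M.ball 1 * (M.ball 1)⁻¹) ≤ ν (M.ball 2) := by
    rw [M.inv_ball]; exact measure_mono (M.ball_mul 1 1)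
  rw [ENNReal.div_eq_inv_mul, mul_assoc, ← ENNReal.div_eq_inv_mul,
    ENNReal.le_div_iff_mul_le (Or.inl M.volume_ball_ne_zero) (Or.inl (M.volume_ball_ne_top 1))]
  exact h1.trans (by gcongr)

/-- `cov_le` with `B = ball 1` -/
theorem hm_le_vol (hU : M.IsSub U) : ∃ D : ℝ≥0∞, D ≠ ⊤ ∧ ∀ A : Set M.G, M.hm U A ≤ D * volume (A * M.ball 1) := by
  exact M.covb_le (M.hm U) (M.expSub U) (fun u hu => M.hm_mul_left hU hu) (M.hm_compl hU)

/-- `cov_ge` with `B = exp '' (closedBall 0 1 ∩ U)` -/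
theorem vol_le_hm (hU : M.IsSub U) : ∃ D : ℝ≥0∞, D ≠ ⊤ ∧ ∀ A ⊆ (M.expSub U : Set M.G), ∀ Q : Set M.G,
    volume (A * Q) ≤ D * M.hm U (A * M.exp '' (Metric.closedBall 0 1 ∩ U)) * volume (M.ball 1 * Q) := by
  set B : Set M.G := M.exp '' (Metric.closedBall 0 1 ∩ U) with hB
  have hB1 : B ⊆ M.ball 1 := by
    rintro _ ⟨X, hX, rfl⟩
    exact M.exp_mem_ball (by simpa using hX.1)
  have hne : M.hm U B ≠ 0 := M.hm_unit_ne_zero U
  have htop : M.hm U B ≠ ⊤ := ne_top_of_le_ne_top (M.hm_ball_ne_top U 1) (measure_mono hB1)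
  refine ⟨(M.hm U B)⁻¹, ENNReal.inv_ne_top.2 hne, fun A hA Q => ?_⟩
  have h1 := cov_ge volume (M.hm U) (M.expSub U) (fun u hu => M.hm_mul_left hU hu) hA B Q
  have h2 : volume (B⁻¹ * Q) ≤ volume (M.ball 1 * Q) := by
    refine measure_mono (Set.mul_subset_mul_right ?_)
    rw [← M.inv_ball]; exact Set.inv_subset_inv.2 hB1
  rw [mul_assoc, ← ENNReal.div_eq_inv_mul, ENNReal.le_div_iff_mul_le (Or.inl hne) (Or.inl htop)]
  exact h1.trans (by gcongr)

theorem hC_le_vol : ∃ D : ℝ≥0∞, D ≠ ⊤ ∧ ∀ A : Set M.G, M.hC A ≤ D * volume (A * M.ball 1) := by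
  exact M.covb_le M.hC M.C (fun u hu => M.hC_mul_left hu) M.hC_compl

theorem covb_card {A : Set M.G} {S : Finset M.G} (hS : (S : Set M.G) ⊆ A)
    (hd : (S : Set M.G).PairwiseDisjoint fun s => s • M.ball 1) :
    S.card * volume (M.ball 1) ≤ volume (A * M.ball 1) := by
  have h1 : volume (⋃ s ∈ S, s • M.ball 1) = ∑ s ∈ S, volume (s • M.ball 1) :=
    measure_biUnion_finset hd fun s _ => (M.measurableSet_ball 1).const_smul s
  have h2 : ∑ s ∈ S, volume (s • M.ball 1) = S.card * volume (M.ball 1) := by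
    simp [measure_smul]
  rw [← h2, ← h1]
  refine measure_mono (iUnion₂_subset fun s hs => ?_)
  rintro _ ⟨b, hb, rfl⟩
  exact ⟨s, hS hs, b, hb, rfl⟩

/-- A finite `S ⊆ A` of maximal cardinality with the translates `s * ball 1` pairwise disjoint (the cardinality is bounded because
`volume (ball 1) ≠ 0`). -/
theorem exists_net (A : Set M.G) (hA : volume (A * M.ball 1) ≠ ⊤) : ∃ S : Finset M.G, (S : Set M.G) ⊆ A ∧
    A ⊆ (S : Set M.G) * M.ball 2 ∧ S.card * volume (M.ball 1) ≤ volume (A * M.ball 1) := by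
  classical
  let T : Set ℕ := {n | ∃ S : Finset M.G, (S : Set M.G) ⊆ A ∧
    ((S : Set M.G).PairwiseDisjoint fun s => s • M.ball 1) ∧ S.card = n}
  have hne : T.Nonempty := ⟨0, ∅, by simp, by simp, rfl⟩
  have hbd : BddAbove T := by
    obtain ⟨N, hN⟩ := ENNReal.exists_nat_gt (ENNReal.div_ne_top hA M.volume_ball_ne_zero)
    refine ⟨N, ?_⟩
    rintro _ ⟨S, hS, hd, rfl⟩
    have h1 := M.covb_card hS hd
    rw [← ENNReal.le_div_iff_mul_le (Or.inl M.volume_ball_ne_zero) (Or.inl (M.volume_ball_ne_top 1))] at h1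
    exact_mod_cast (h1.trans hN.le)
  obtain ⟨S, hS, hd, hc⟩ := Nat.sSup_mem hne hbd
  refine ⟨S, hS, fun a ha => ?_, M.covb_card hS hd⟩
  by_contra hn
  have haS : a ∉ S := fun h' => hn ⟨a, h', 1, M.one_mem_ball 2, mul_one a⟩
  have hmem : (insert a S).card ∈ T := by
    refine ⟨insert a S, ?_, ?_, rfl⟩
    · rw [Finset.coe_insert]; exact insert_subset ha hS
    · rw [Finset.coe_insert]
      refine hd.insert fun s hs _ => Set.disjoint_left.2 ?_
      rintro _ ⟨b, hb, rfl⟩ ⟨b', hb', he⟩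
      refine hn ⟨s, hs, b' * b⁻¹, M.mul_mem_ball hb' (M.inv_mem_ball hb), ?_⟩
      simp only [smul_eq_mul] at he
      show s * (b' * b⁻¹) = a
      rw [← mul_assoc, he, mul_inv_cancel_right]
  have := le_csSup hbd hmem
  rw [Finset.card_insert_of_notMem haS, ← hc] at this
  omega

theorem volume_finset_mul_le (S : Finset M.G) (B : Set M.G) : volume ((S : Set M.G) * B) ≤ S.card * volume B := by
  have h1 : (S : Set M.G) * B ⊆ ⋃ s ∈ S, s • B := by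
    rintro _ ⟨s, hs, b, hb, rfl⟩
    exact mem_iUnion₂.2 ⟨s, hs, b, hb, rfl⟩
  refine (measure_mono h1).trans ((measure_biUnion_finset_le _ _).trans (le_of_eq ?_))
  simp [measure_smul]

theorem vc_main (N : ℕ) : ∃ D : ℝ≥0∞, D ≠ ⊤ ∧ ∀ A B : Set M.G, (∀ S : Finset M.G, A ⊆ (S : Set M.G) * M.ball 2 →
    ∃ f : M.G → M.G, B ⊆ f '' S * M.ball N) → volume B ≤ D * volume (A * M.ball 1) := by
  classical
  have h0 := M.volume_ball_ne_zero
  refine ⟨volume (M.ball N) / volume (M.ball 1) + 1,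
    ENNReal.add_ne_top.2 ⟨ENNReal.div_ne_top (M.volume_ball_ne_top N) h0, ENNReal.one_ne_top⟩, fun A B H => ?_⟩
  by_cases hA : volume (A * M.ball 1) = ⊤
  · rw [hA, ENNReal.mul_top (by simp)]
    exact le_top
  obtain ⟨S, -, h1, h2⟩ := M.exists_net A hA
  obtain ⟨f, hf⟩ := H S h1
  calc volume B ≤ volume (((S.image f : Finset M.G) : Set M.G) * M.ball N) := measure_mono (by rwa [Finset.coe_image])
    _ ≤ S.card * volume (M.ball N) := (M.volume_finset_mul_le _ _).trans (mul_le_mul_left (Nat.cast_le.2 Finset.card_image_le) _)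
    _ = volume (M.ball N) / volume (M.ball 1) * (S.card * volume (M.ball 1)) := by
        rw [mul_left_comm, ENNReal.div_mul_cancel h0 (M.volume_ball_ne_top 1)]
    _ ≤ _ := mul_le_mul' le_self_add h2

theorem vc_lip {K : ℝ} {m n N : ℕ} (h1 : (m : ℝ) ≤ K * n + K) (h2 : n ≤ N) : m ≤ ⌈(N + 1) * |K|⌉₊ := by
  have h3 : (n : ℝ) ≤ N := by exact_mod_cast h2
  have h4 := le_abs_self K
  have h5 := abs_nonneg K
  have h6 : (0 : ℝ) ≤ n := by positivity
  exact_mod_cast h1.trans ((by nlinarith : K * n + K ≤ (N + 1) * |K|).trans (Nat.le_ceil _))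

theorem vol_thick (R : ℕ) : ∃ D : ℝ≥0∞, D ≠ ⊤ ∧ ∀ A : Set M.G, volume (A * M.ball R) ≤ D * volume (A * M.ball 1) := by
  refine (M.vc_main (2 + R)).imp fun D hD => ⟨hD.1, fun A => hD.2 A _ fun S hS => ⟨id, ?_⟩⟩
  rw [image_id]
  exact (mul_subset_mul_right hS).trans (by rw [mul_assoc]; exact mul_subset_mul_left (M.ball_mul _ _))

/-- coarsely Lipschitz maps: `φ '' A * ball R ⊆ φ '' S * ball (⌈3 K⌉ + R)` (choose `D ≠ 0` for the case of infinite volume) -/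
theorem vol_image_le (K : ℝ) (R : ℕ) : ∃ D : ℝ≥0∞, D ≠ ⊤ ∧ ∀ φ : M.G → M.G,
    (∀ x y, (M.len ((φ x)⁻¹ * φ y) : ℝ) ≤ K * M.len (x⁻¹ * y) + K) →
      ∀ A : Set M.G, volume (φ '' A * M.ball R) ≤ D * volume (A * M.ball 1) := by
  refine (M.vc_main (⌈((2 : ℕ) + 1) * |K|⌉₊ + R)).imp fun D hD => ⟨hD.1, fun φ hφ A => hD.2 A _ fun S hS => ⟨φ, ?_⟩⟩
  rintro _ ⟨_, ⟨a, ha, rfl⟩, r, hr, rfl⟩
  obtain ⟨s, hs, b, hb, rfl⟩ := hS ha
  refine ⟨φ s, mem_image_of_mem _ hs, (φ s)⁻¹ * φ (s * b) * r, M.mul_mem_ball (vc_lip (hφ _ _) ?_) hr, by simp [mul_assoc]⟩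
  rwa [inv_mul_cancel_left]

/-- coarsely expanding maps: each `φ ⁻¹' (s * ball 2)` is empty or contained in a translate of `ball ⌈5 |K|⌉` -/
theorem vol_preimage_le (K : ℝ) (R : ℕ) : ∃ D : ℝ≥0∞, D ≠ ⊤ ∧ ∀ φ : M.G → M.G,
    (∀ x y, (M.len (x⁻¹ * y) : ℝ) ≤ K * M.len ((φ x)⁻¹ * φ y) + K) →
      ∀ A : Set M.G, volume (φ ⁻¹' A * M.ball R) ≤ D * volume (A * M.ball 1) := by
  refine (M.vc_main (⌈((2 + 2 : ℕ) + 1) * |K|⌉₊ + R)).imp fun D hD => ⟨hD.1, fun φ hφ A => hD.2 A _ fun S hS => ?_⟩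
  choose! f hf using fun s (h : ∃ x, s⁻¹ * φ x ∈ M.ball 2) => h
  refine ⟨f, ?_⟩
  rintro _ ⟨a, ha, r, hr, rfl⟩
  obtain ⟨s, hs, b, hb, e⟩ := hS ha
  have h1 : s⁻¹ * φ a ∈ M.ball 2 := by rwa [← e, inv_mul_cancel_left]
  refine ⟨f s, mem_image_of_mem _ hs, (f s)⁻¹ * a * r, M.mul_mem_ball (vc_lip (hφ _ _) ?_) hr, by simp [mul_assoc]⟩
  simpa [mul_assoc, mem_ball] using M.mul_mem_ball (M.inv_mem_ball (hf s ⟨a, h1⟩)) h1

/-- `volume_par`, `Real.volume_pi_closedBall`; at most `2 r + 1` integers have `|z| ≤ r` -/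
theorem vol_box_le {s r : ℝ} (hs : 0 ≤ s) (hr : 0 ≤ r) :
    volume {g : M.G | ‖M.lgm g‖ ≤ s ∧ ∀ i, |(M.tv g i : ℝ)| ≤ r} ≤ ENNReal.ofReal ((2 * s) ^ h * (2 * r + 1) ^ k) := by
  classical
  set A : Finset (Fin k → ℤ) := Fintype.piFinset fun _ : Fin k => Finset.Icc (-⌊r⌋) ⌊r⌋ with hA
  have hsub : {g : M.G | ‖M.lgm g‖ ≤ s ∧ ∀ i, |(M.tv g i : ℝ)| ≤ r} ⊆
      M.par '' (Metric.closedBall (0 : V h) s ×ˢ (A : Set (Fin k → ℤ))) := by
    rintro g ⟨h1, h2⟩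
    refine ⟨M.chart g, ⟨by simpa [chart] using h1, ?_⟩, M.par_chart g⟩
    show M.tv g ∈ (A : Set (Fin k → ℤ))
    rw [Finset.mem_coe, hA, Fintype.mem_piFinset]
    intro i
    have h3 := abs_le.1 (h2 i)
    rw [Finset.mem_Icc]
    refine ⟨?_, Int.le_floor.2 h3.2⟩
    have : -M.tv g i ≤ ⌊r⌋ := Int.le_floor.2 (by push_cast; linarith [h3.1])
    linarith
  refine (measure_mono hsub).trans ?_
  rw [M.volume_par Metric.isClosed_closedBall.measurableSet, Real.volume_pi_closedBall _ hs, Fintype.card_fin,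
    ENNReal.ofReal_mul (by positivity), mul_comm]
  refine mul_le_mul_right ?_ _
  rw [← ENNReal.ofReal_natCast]
  refine ENNReal.ofReal_le_ofReal ?_
  have h0 : 0 ≤ ⌊r⌋ := Int.floor_nonneg.2 hr
  have hc : ((Finset.Icc (-⌊r⌋) ⌊r⌋).card : ℝ) ≤ 2 * r + 1 := by
    have e : ((Finset.Icc (-⌊r⌋) ⌊r⌋).card : ℤ) = ⌊r⌋ + 1 - -⌊r⌋ := Int.card_Icc_of_le _ _ (by omega)
    have e' : ((Finset.Icc (-⌊r⌋) ⌊r⌋).card : ℝ) = (⌊r⌋ : ℝ) + 1 - -(⌊r⌋ : ℝ) := by exact_mod_cast e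
    have := Int.floor_le r
    linarith
  rw [hA, Fintype.card_piFinset, Finset.prod_const, Finset.card_univ, Fintype.card_fin, Nat.cast_pow]
  exact pow_le_pow_left₀ (Nat.cast_nonneg _) hc k

theorem vd_bch : ∃ E : ℝ, 1 ≤ E ∧ ∀ (ρ : ℝ) (X Y : V h), 1 ≤ ρ → ‖X‖ ≤ Real.exp ρ → ‖Y‖ ≤ Real.exp ρ →
    ‖M.bch X Y‖ ≤ Real.exp (E * ρ) := by
  obtain ⟨B, D, hB, H⟩ := M.norm_bch_le
  refine ⟨B + D, by have : (0 : ℝ) ≤ D := Nat.cast_nonneg D; linarith, fun ρ X Y hρ hX hY => ?_⟩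
  refine (H _ X Y (Real.one_le_exp (by linarith)) hX hY).trans ?_
  rw [add_mul, Real.exp_add, ← Real.exp_nat_mul]
  refine mul_le_mul_of_nonneg_right ?_ (Real.exp_pos _).le
  have h1 := Real.add_one_le_exp (B * ρ)
  nlinarith

theorem vd_len {r : ℝ} {a : Fin k → ℤ} (ha : ∀ i, |(a i : ℝ)| ≤ r) : (M.len (M.sec a) : ℝ) ≤ k * r := by
  have h1 : (M.len (M.sec a) : ℝ) ≤ ((∑ i, (a i).natAbs : ℕ) : ℝ) := by exact_mod_cast M.len_sec_le a
  refine h1.trans ?_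
  rw [Nat.cast_sum]
  refine (Finset.sum_le_sum fun i _ => (?_ : (((a i).natAbs : ℕ) : ℝ) ≤ r)).trans (by simp)
  rw [Nat.cast_natAbs, Int.cast_abs]
  exact ha i

/-- `lgm_mul`, `norm_bch_le`, `exists_norm_Ad_le`, `len_sec_le`, `exists_norm_lgm_le` -/
theorem exists_box_mul : ∃ B : ℝ, 1 ≤ B ∧ ∀ r : ℝ, 1 ≤ r → ∀ g g' : M.G, ‖M.lgm g‖ ≤ Real.exp r → (∀ i, |(M.tv g i : ℝ)| ≤ r) →
    ‖M.lgm g'‖ ≤ Real.exp r → (∀ i, |(M.tv g' i : ℝ)| ≤ r) →
      ‖M.lgm (g * g')‖ ≤ Real.exp (B * r) ∧ ‖M.lgm g⁻¹‖ ≤ Real.exp (B * r) := by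
  obtain ⟨E, hE, HE⟩ := M.vd_bch
  obtain ⟨B₂, hB₂, H₂⟩ := M.exists_norm_Ad_le
  obtain ⟨B₃, hB₃, H₃⟩ := M.exists_norm_lgm_le
  have hk : (0 : ℝ) ≤ k := Nat.cast_nonneg k
  set c : ℝ := 1 + B₂ * k + 2 * (B₃ * k) with hc
  have p2 := mul_nonneg hB₂ hk
  have p3 := mul_nonneg hB₃ hk
  have hc1 : 1 ≤ c := by linarith
  have hEc : 1 ≤ E * c := one_le_mul_of_one_le_of_one_le hE hc1
  refine ⟨E * (E * c), one_le_mul_of_one_le_of_one_le hE hEc, fun r hr g g' h1 h2 h1' h2' => ?_⟩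
  have hr0 : 0 ≤ r := by linarith
  have hcr : 1 ≤ c * r := one_le_mul_of_one_le_of_one_le hc1 hr
  have hEcr : c * r ≤ E * (c * r) := le_mul_of_one_le_left (by linarith) hE
  have q2 := mul_nonneg p2 hr0
  have q3 := mul_nonneg p3 hr0
  have hAd : ∀ (u : M.G) (X : V h), (M.len u : ℝ) ≤ k * r → ‖X‖ ≤ Real.exp r → ‖M.Ad u X‖ ≤ Real.exp (c * r) := by
    intro u X hu hX
    refine (H₂ u X).trans ?_
    refine (mul_le_mul (Real.exp_le_exp.2 (mul_le_mul_of_nonneg_left hu hB₂)) hX (norm_nonneg _)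
      (Real.exp_pos _).le).trans ?_
    rw [← Real.exp_add]
    refine Real.exp_le_exp.2 ?_
    rw [hc]; nlinarith
  have hlg : ∀ u : M.G, (M.len u : ℝ) ≤ 2 * (k * r) → ‖M.lgm u‖ ≤ Real.exp (c * r) := by
    intro u hu
    refine (H₃ u).trans (Real.exp_le_exp.2 ((mul_le_mul_of_nonneg_left hu hB₃).trans ?_))
    rw [hc]; nlinarith
  have l1 := M.vd_len h2
  have l2 := M.vd_len h2'
  have hkr := mul_nonneg hk hr0
  have hg : ‖M.lgm g‖ ≤ Real.exp (c * r) := h1.trans (Real.exp_le_exp.2 (le_mul_of_one_le_left hr0 hc1))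
  constructor
  · rw [M.lgm_mul]
    have a1 := HE _ _ _ hcr hg (hAd _ _ l1 h1')
    have a2 : ‖M.lgm (M.sec (M.tv g) * M.sec (M.tv g'))‖ ≤ Real.exp (E * (c * r)) := by
      refine (hlg _ ?_).trans (Real.exp_le_exp.2 hEcr)
      have : (M.len (M.sec (M.tv g) * M.sec (M.tv g')) : ℝ) ≤ M.len (M.sec (M.tv g)) + M.len (M.sec (M.tv g')) := by
        exact_mod_cast M.len_mul _ _
      linarith
    refine (HE _ _ _ (hcr.trans hEcr) a1 a2).trans (le_of_eq ?_)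
    congr 1; ring
  · rw [M.lgm_inv]
    have l3 : (M.len (M.sec (M.tv g))⁻¹ : ℝ) ≤ k * r := by rw [M.len_inv]; exact l1
    have a1 : ‖-M.Ad (M.sec (M.tv g))⁻¹ (M.lgm g)‖ ≤ Real.exp (c * r) := by rw [norm_neg]; exact hAd _ _ l3 h1
    refine (HE _ _ _ hcr a1 (hlg _ (by linarith))).trans (Real.exp_le_exp.2 ?_)
    have : E * (c * r) ≤ E * (E * (c * r)) := mul_le_mul_of_nonneg_left hEcr (by linarith)
    linarith

/-- `exists_box_mul` twice, `exists_norm_lgm_le`, `abs_tv_le`, `vol_box_le` (replace `r` by `r + B R + 1`) -/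
theorem exists_vol_box (R : ℕ) : ∃ B : ℝ, 0 ≤ B ∧ ∀ r : ℝ, 0 ≤ r →
    volume (M.ball R * {g : M.G | ‖M.lgm g‖ ≤ Real.exp r ∧ ∀ i, |(M.tv g i : ℝ)| ≤ r} * M.ball R) ≤
      ENNReal.ofReal (Real.exp (B * (r + 1))) := by
  obtain ⟨B, hB, HB⟩ := M.exists_box_mul
  obtain ⟨B₃, hB₃, H₃⟩ := M.exists_norm_lgm_le
  have hR : (0 : ℝ) ≤ R := Nat.cast_nonneg R
  have hh : (0 : ℝ) ≤ h := Nat.cast_nonneg h
  have hk : (0 : ℝ) ≤ k := Nat.cast_nonneg k
  have p3 := mul_nonneg hB₃ hR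
  have hB0 : 0 ≤ B := by linarith
  refine ⟨(h * (1 + B * B) + 4 * k) * (B₃ * R + R + 1), by positivity, fun r hr => ?_⟩
  set r₁ : ℝ := r + B₃ * R + R + 1 with hr₁
  have h1 : 1 ≤ r₁ := by linarith
  have h2 : r₁ ≤ B * r₁ := le_mul_of_one_le_left (by linarith) hB
  have hball : ∀ a ∈ M.ball R, ‖M.lgm a‖ ≤ Real.exp r₁ ∧ ∀ i, |(M.tv a i : ℝ)| ≤ R := by
    intro a ha
    have : (M.len a : ℝ) ≤ R := by exact_mod_cast (M.mem_ball.1 ha)
    refine ⟨(H₃ a).trans (Real.exp_le_exp.2 ((mul_le_mul_of_nonneg_left this hB₃).trans (by linarith))),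
      fun i => (M.abs_tv_le a i).trans this⟩
  have hsub : M.ball R * {g : M.G | ‖M.lgm g‖ ≤ Real.exp r ∧ ∀ i, |(M.tv g i : ℝ)| ≤ r} * M.ball R ⊆
      {g : M.G | ‖M.lgm g‖ ≤ Real.exp (B * (B * r₁)) ∧ ∀ i, |(M.tv g i : ℝ)| ≤ 2 * r₁} := by
    rintro _ ⟨_, ⟨a, ha, x, ⟨hx1, hx2⟩, rfl⟩, b, hb, rfl⟩
    obtain ⟨a1, a2⟩ := hball a ha
    obtain ⟨b1, b2⟩ := hball b hb
    have t1 : ∀ i, |(M.tv (a * x) i : ℝ)| ≤ R + r := by
      intro i
      rw [M.tv_mul, Pi.add_apply, Int.cast_add]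
      exact (abs_add_le _ _).trans (add_le_add (a2 i) (hx2 i))
    have c1 := (HB r₁ h1 a x a1 (fun i => (a2 i).trans (by linarith)) (hx1.trans (Real.exp_le_exp.2 (by linarith)))
      (fun i => (hx2 i).trans (by linarith))).1
    have c2 := (HB (B * r₁) (h1.trans h2) (a * x) b c1 (fun i => (t1 i).trans (by linarith))
      (b1.trans (Real.exp_le_exp.2 h2)) (fun i => (b2 i).trans (by linarith))).1
    refine ⟨c2, fun i => ?_⟩
    show |(M.tv (a * x * b) i : ℝ)| ≤ 2 * r₁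
    rw [M.tv_mul, Pi.add_apply, Int.cast_add]
    exact (abs_add_le _ _).trans ((add_le_add (t1 i) (b2 i)).trans (by linarith))
  refine (measure_mono hsub).trans ((M.vol_box_le (Real.exp_pos _).le (by linarith)).trans (ENNReal.ofReal_le_ofReal ?_))
  have e1 : 2 * Real.exp (B * (B * r₁)) ≤ Real.exp ((1 + B * B) * r₁) := by
    rw [add_mul, one_mul, Real.exp_add, mul_assoc]
    refine mul_le_mul_of_nonneg_right ?_ (Real.exp_pos _).le
    linarith [Real.add_one_le_exp r₁]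
  have e2 : 2 * (2 * r₁) + 1 ≤ Real.exp (4 * r₁) := by linarith [Real.add_one_le_exp (4 * r₁)]
  refine (mul_le_mul (pow_le_pow_left₀ (by positivity) e1 h) (pow_le_pow_left₀ (by linarith) e2 k) (by positivity)
    (by positivity)).trans ?_
  rw [← Real.exp_nat_mul, ← Real.exp_nat_mul, ← Real.exp_add]
  refine Real.exp_le_exp.2 ?_
  have e3 : r₁ ≤ (B₃ * R + R + 1) * (r + 1) := by rw [hr₁]; nlinarith [mul_nonneg p3 hr, mul_nonneg hR hr]
  have e4 : 0 ≤ (h * (1 + B * B) + 4 * k : ℝ) := by positivity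
  calc (h : ℝ) * ((1 + B * B) * r₁) + k * (4 * r₁) = (h * (1 + B * B) + 4 * k) * r₁ := by ring
    _ ≤ (h * (1 + B * B) + 4 * k) * ((B₃ * R + R + 1) * (r + 1)) := mul_le_mul_of_nonneg_left e3 e4
    _ = _ := by ring

end Model

end Crest.Agent.R182
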