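import Crest.Agent.R182.V.Defs
import Crest.Agent.R182.A.ApiWt

/-! R182/V/Det (owner helper36): determinants of the adjoint action on invariant subspaces. -/

set_option autoImplicit false
set_option linter.unusedVariables false
set_option linter.unusedSectionVars false
open Set Filter Topology MeasureTheory Crest.GroupTheory
open scoped Pointwise commutatorElement ENNReal

noncomputable section
namespace Crest.Agent.R182

namespace Model
variable {h k : ℕ} (M : Model h k) {U : Submodule ℝ (V h)}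

/-- `U` is the internal direct sum of the `U ⊓ W α` (`gr.graded`, `gr.indep`; `W α = ⊥` unless `α = wt j`, `W_ne_bot`); collect bases
(index type `Σ α : image, Fin (finrank (U ⊓ W α))`). -/
theorem exists_wt_basis (hU : ∀ g ∈ M.C, ∀ X ∈ U, M.Ad g X ∈ U) : ∃ (ι : Type) (_ : Fintype ι) (b : Module.Basis ι ℝ U)
    (w : ι → Fin k → ℝ), (∀ i, (b i : V h) ∈ M.W (w i)) ∧ ∀ f : (Fin k → ℝ) → ℝ,
      ∑ i, f (w i) = ∑ α ∈ Finset.univ.image M.wt, (Module.finrank ℝ (U ⊓ M.W α : Submodule ℝ (V h)) : ℝ) * f α := by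
  classical
  let S : Finset (Fin k → ℝ) := Finset.univ.image M.wt
  let A : S → Submodule ℝ U := fun α => (M.W α.1).comap U.subtype
  have hmap : ∀ α : S, (A α).map U.subtype = U ⊓ M.W α.1 := fun α => Submodule.map_comap_subtype _ _
  have hA : DirectSum.IsInternal A := by
    refine (DirectSum.isInternal_submodule_iff_iSupIndep_and_iSup_eq_top A).2 ⟨fun α => ?_, ?_⟩
    · have h1 : (⨆ β, ⨆ (_ : β ≠ α), A β) ≤ (⨆ β, ⨆ (_ : β ≠ α.1), M.W β).comap U.subtype :=
        iSup₂_le fun β hβ => Submodule.comap_mono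
          (le_iSup₂_of_le (f := fun β (_ : β ≠ α.1) => M.W β) β.1 (fun e => hβ (Subtype.ext e)) le_rfl)
      refine Submodule.disjoint_def.2 fun x hx hx' => Subtype.ext ?_
      exact Submodule.disjoint_def.1 (M.gr.indep α.1) x.1 hx (h1 hx')
    · have h1 : (⨆ α, U ⊓ M.W α) ≤ (⨆ α, A α).map U.subtype := iSup_le fun α => by
        by_cases hα : α ∈ S
        · rw [← hmap ⟨α, hα⟩]
          exact Submodule.map_mono (le_iSup A ⟨α, hα⟩)
        · have : M.W α = ⊥ := by
            by_contra h0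
            obtain ⟨j, hj⟩ := M.W_ne_bot.1 h0
            exact hα (Finset.mem_image.2 ⟨j, Finset.mem_univ _, hj⟩)
          simp [this]
      refine eq_top_iff.2 fun x _ => ?_
      obtain ⟨y, hy, e⟩ := h1 (M.gr.graded U hU x.2)
      rwa [← show y = x from Subtype.ext e]
  haveI : ∀ α, Module.Free ℝ (A α) := fun α => Module.Free.of_divisionRing ℝ (A α)
  refine ⟨Σ α : S, Fin (Module.finrank ℝ (A α)), inferInstance, hA.collectedBasis fun α => Module.finBasis ℝ (A α),
    fun i => i.1.1, fun i => hA.collectedBasis_mem _ i, fun f => ?_⟩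
  rw [Fintype.sum_sigma, ← Finset.sum_coe_sort S]
  refine Finset.sum_congr rfl fun α _ => ?_
  rw [← hmap, Submodule.finrank_map_subtype_eq]
  simp

/-- As in `apiwtb_unimod`/`sum_wt_ge`: with the basis of `exists_wt_basis`, `apiwtb_det` and `Grading.W_le_D` (growth of `Ad (g ^ n)` on `W α`)
give `|det| ^ n ≤ B (1 + |n|) ^ D exp (n * s)` for all `n : ℤ`, so `|det| = exp s` (`apiwtb_exp'` with `β = s - log |det|`). -/
theorem abs_det_restrict (hU : ∀ g ∈ M.C, ∀ X ∈ U, M.Ad g X ∈ U) {g : M.G} (hg : g ∈ M.C) :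
    |LinearMap.det ((M.Ad g).restrict (hU g hg))| =
      Real.exp (∑ α ∈ Finset.univ.image M.wt, (Module.finrank ℝ (U ⊓ M.W α : Submodule ℝ (V h)) : ℝ) * M.ht α g) := by
  classical
  obtain ⟨ι, _, b, w, hb, hs⟩ := M.exists_wt_basis hU
  rw [← hs fun α => M.ht α g]
  let ρ : M.C →* Module.End ℝ U :=
    { toFun := fun x => (M.Ad x.1).restrict (hU x.1 x.2)
      map_one' := LinearMap.ext fun X => Subtype.ext (by simp)
      map_mul' := fun x y => LinearMap.ext fun X => Subtype.ext (by simp) }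
  let φ : M.C →* ℝ := LinearMap.det.comp ρ
  have h0 : 0 < |φ ⟨g, hg⟩| := abs_pos.2 ((Group.isUnit _).map φ).ne_zero
  let L := LinearMap.toContinuousLinearMap b.equivFun.toLinearMap
  choose C D hC hD using fun j => M.grading.W_le_D hg (w j) (hb j)
  have key : ∀ m : ℤ, 1 ≤ ((Fintype.card ι).factorial * ∏ j, ‖L‖ * C j) * (1 + |(m : ℝ)|) ^ (∑ j, D j) *
      Real.exp ((∑ j, M.ht (w j) g - Real.log |φ ⟨g, hg⟩|) * m) := fun m => by
    have h1 : |φ ⟨g, hg⟩| ^ m ≤ (Fintype.card ι).factorial *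
        ∏ j, ‖L‖ * (C j * (1 + |(m : ℝ)|) ^ D j * Real.exp (M.ht (w j) g * m)) := by
      rw [← abs_zpow, ← map_zpow]
      change |LinearMap.det (ρ (⟨g, hg⟩ ^ m))| ≤ _
      rw [← LinearMap.det_toMatrix b]
      refine apiwtb_det fun l j => ?_
      rw [LinearMap.toMatrix_apply]
      exact (norm_le_pi_norm (L (ρ (⟨g, hg⟩ ^ m) (b j))) l).trans ((L.le_opNorm _).trans
        (mul_le_mul_of_nonneg_left (hD j m) (norm_nonneg _)))
    have h2 : |φ ⟨g, hg⟩| ^ m = Real.exp (Real.log |φ ⟨g, hg⟩| * m) := by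
      rw [Real.exp_mul, Real.exp_log h0, Real.rpow_intCast]
    rw [sub_mul, Real.exp_sub, mul_div_assoc', one_le_div (Real.exp_pos _), ← h2]
    refine h1.trans_eq ?_
    simp only [← mul_assoc, Finset.prod_mul_distrib, Finset.prod_pow_eq_pow_sum, ← Real.exp_sum, ← Finset.sum_mul]
  rw [sub_eq_zero.1 (apiwtb_exp' key), Real.exp_log h0]
  rfl

/-- the restriction of `Ad (exp X) - 1` is nilpotent (`unip`, `Unip.isNilpotent`; compare `gradec_det_exp`) -/
theorem det_restrict_exp (X : V h) (hX : ∀ Y ∈ U, M.Ad (M.exp X) Y ∈ U) : LinearMap.det ((M.Ad (M.exp X)).restrict hX) = 1 := by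
  have h1 : IsNilpotent (M.Ad (M.exp X) - 1) := M.unip.isNilpotent ((M.τ_ker _).2 ⟨X, rfl⟩)
  have hm : ∀ Y ∈ U, (-(M.Ad (M.exp X) - 1)) Y ∈ U := fun Y hY =>
    Submodule.neg_mem _ (Submodule.sub_mem _ (hX Y hY) hY)
  have h2 := LinearMap.eval_charpoly ((-(M.Ad (M.exp X) - 1)).restrict hm) 1
  rw [(Module.End.isNilpotent.restrict hm h1.neg).charpoly_eq_X_pow_finrank] at h2
  simp only [Polynomial.eval_pow, Polynomial.eval_X, one_pow, map_one] at h2
  rw [h2]
  congr 1
  ext Y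
  simp

/-- `g = exp (lgm g) * sec (tv g)` -/
theorem abs_det_restrict' (hU : ∀ g, ∀ X ∈ U, M.Ad g X ∈ U) (g : M.G) :
    |LinearMap.det ((M.Ad g).restrict (hU g))| =
      Real.exp (∑ α ∈ Finset.univ.image M.wt, (Module.finrank ℝ (U ⊓ M.W α : Submodule ℝ (V h)) : ℝ) * M.ht α g) := by
  have e : (M.Ad g).restrict (hU g) = (M.Ad (M.exp (M.lgm g))).restrict (hU _) *
      (M.Ad (M.sec (M.tv g))).restrict (hU _) := LinearMap.ext fun X => Subtype.ext (by
    change M.Ad g X = M.Ad (M.exp (M.lgm g)) (M.Ad (M.sec (M.tv g)) X)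
    rw [← Module.End.mul_apply, ← map_mul, M.exp_lgm])
  rw [e, map_mul, M.det_restrict_exp, one_mul, M.abs_det_restrict (fun g _ => hU g) (M.sec_mem _)]
  simp only [fun α => M.ht_congr α (M.tv_sec (M.tv g))]

/-- invariant subspaces of `W 0`: `U ⊓ W α = ⊥` for `α ≠ 0` -/
theorem abs_det_of_le_W (hU : ∀ g ∈ M.C, ∀ X ∈ U, M.Ad g X ∈ U) (h0 : U ≤ M.W 0) {g : M.G} (hg : g ∈ M.C) :
    |LinearMap.det ((M.Ad g).restrict (hU g hg))| = 1 := by
  rw [M.abs_det_restrict hU hg, Finset.sum_eq_zero, Real.exp_zero]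
  intro α _
  rcases eq_or_ne α 0 with rfl | hα
  · rw [M.ht_zero, mul_zero]
  · rw [((M.grading.indep.pairwiseDisjoint hα.symm).mono_left h0).eq_bot, finrank_bot, Nat.cast_zero, zero_mul]

end Model

end Crest.Agent.R182
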