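import Crest.Agent.R182.A.ApiPoly
import Crest.Agent.R182.A.ApiVol

/-! R182/V/Defs (owner helper36): Haar measures of subgroups, balls. -/

set_option autoImplicit false
set_option linter.unusedVariables false
set_option linter.unusedSectionVars false
open Set Filter Topology MeasureTheory Crest.GroupTheory
open scoped Pointwise commutatorElement ENNReal

noncomputable section
namespace Crest.Agent.R182

/-- Lebesgue measure of the subspace `U`, as a measure on `V h` -/
def lebU {h : ℕ} (U : Submodule ℝ (V h)) : Measure (V h) := (Measure.addHaar : Measure U).map ((↑) : U → V h)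

namespace Model
variable {h k : ℕ} (M : Model h k)

/-- Haar measure of `exp U` (for a subalgebra `U`), as a measure on `G` -/
def hm (U : Submodule ℝ (V h)) : Measure M.G := (lebU U).map M.exp

/-- balls for the word length -/
def ball (n : ℕ) : Set M.G := {g | M.len g ≤ n}

/-- the compact generating set of `C` -/
def KC : Set M.G := M.exp '' (Metric.closedBall 0 1 ∩ M.W 0) ∪ range M.gen

/-- balls of `C` -/
def ballC (n : ℕ) : Set M.G := {g | ∃ l : List M.G, l.length ≤ n ∧ (∀ x ∈ l, x ∈ M.KC ∨ x⁻¹ ∈ M.KC) ∧ l.prod = g}

/-- word length of `C` (meaningful for `g ∈ C` only) -/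
def lenC (g : M.G) : ℕ := wordLength M.KC g

/-- Haar measure of `C`, as a measure on `G` -/
def hC : Measure M.G := ((lebU (M.W 0)).prod (Measure.count : Measure (Fin k → ℤ))).map M.par

end Model

end Crest.Agent.R182
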