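import Crest.Agent.R182.V.Leb
import Crest.Agent.R182.V.Det

/-! R182/V/Hm (owner helper36): the Haar measures `hm U` and `hC`; balls. -/

set_option autoImplicit false
set_option linter.unusedVariables false
set_option linter.unusedSectionVars false
open Set Filter Topology MeasureTheory Crest.GroupTheory
open scoped Pointwise commutatorElement ENNReal

noncomputable section
namespace Crest.Agent.R182

namespace Model
variable {h k : ℕ} (M : Model h k) {U : Submodule ℝ (V h)}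

theorem mem_ball {n : ℕ} {g : M.G} : g ∈ M.ball n ↔ M.len g ≤ n := Iff.rfl
theorem ball_mono {m n : ℕ} (hmn : m ≤ n) : M.ball m ⊆ M.ball n := fun _ hg => le_trans hg hmn
theorem one_mem_ball (n : ℕ) : 1 ∈ M.ball n := by simp [mem_ball, M.len_one]
theorem inv_mem_ball {n : ℕ} {g : M.G} (hg : g ∈ M.ball n) : g⁻¹ ∈ M.ball n := by rwa [mem_ball, M.len_inv]
theorem inv_ball (n : ℕ) : (M.ball n)⁻¹ = M.ball n := by ext g; simp [mem_ball, M.len_inv]
theorem mul_mem_ball {m n : ℕ} {g g' : M.G} (hg : g ∈ M.ball m) (hg' : g' ∈ M.ball n) : g * g' ∈ M.ball (m + n) :=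
  (M.len_mul g g').trans (add_le_add hg hg')
theorem ball_mul (m n : ℕ) : M.ball m * M.ball n ⊆ M.ball (m + n) := by
  rintro _ ⟨g, hg, g', hg', rfl⟩; exact M.mul_mem_ball hg hg'
theorem isCompact_ball' (n : ℕ) : IsCompact (M.ball n) := M.isCompact_ball n
theorem measurableSet_ball (n : ℕ) : MeasurableSet (M.ball n) := (M.isCompact_ball n).measurableSet
theorem exp_mem_ball {X : V h} (hX : ‖X‖ ≤ 1) : M.exp X ∈ M.ball 1 := (M.len_exp_le X).trans (Nat.ceil_le.2 (by simpa))
theorem volume_ball_ne_top (n : ℕ) : volume (M.ball n) ≠ ⊤ := (M.isCompact_ball n).measure_lt_top.ne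

/-- `volume_exp_mul` -/
theorem volume_ball_ne_zero : volume (M.ball 1) ≠ 0 := by
  have h1 := M.volume_exp_mul (s := Metric.closedBall 0 1) Metric.isClosed_closedBall.measurableSet 1
  refine fun h0 => (Metric.measure_closedBall_pos volume (0 : V h) one_pos).ne' ?_
  rw [← h1]
  refine measure_mono_null ?_ h0
  rintro _ ⟨X, hX, rfl⟩
  simpa using M.exp_mem_ball (mem_closedBall_zero_iff.1 hX)

/-- closed embedding with continuous left inverse `lgm` -/
theorem isClosedEmbedding_exp : IsClosedEmbedding M.exp := by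
  exact Function.LeftInverse.isClosedEmbedding M.lgm_exp M.continuous_lgm M.continuous_exp

theorem exp_emb : MeasurableEmbedding M.exp := M.isClosedEmbedding_exp.measurableEmbedding

theorem hm_apply (U : Submodule ℝ (V h)) (A : Set M.G) : M.hm U A = lebU U (M.exp ⁻¹' A) := M.exp_emb.map_apply _ _

theorem hm_exp (U : Submodule ℝ (V h)) (A : Set (V h)) : M.hm U (M.exp '' A) = lebU U A := by
  rw [hm_apply, preimage_image_eq _ M.exp_inj]

instance (U : Submodule ℝ (V h)) : IsFiniteMeasureOnCompacts (M.hm U) := by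
  refine ⟨fun K hK => ?_⟩
  rw [hm_apply]
  exact (M.isClosedEmbedding_exp.isCompact_preimage hK).measure_lt_top

instance (U : Submodule ℝ (V h)) : SigmaFinite (M.hm U) := inferInstance

theorem hma_pre (hU : M.IsSub U) : M.exp ⁻¹' (M.expSub U : Set M.G) = U := by
  ext X
  exact M.exp_mem_expSub hU

theorem hma_exp (U : Submodule ℝ (V h)) : MeasurePreserving M.exp (lebU U) (M.hm U) := ⟨M.exp_emb.measurable, rfl⟩

theorem hm_compl (hU : M.IsSub U) : M.hm U (M.expSub U : Set M.G)ᶜ = 0 := by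
  rw [hm_apply, preimage_compl, M.hma_pre hU, lebU_compl]

theorem hm_inter (hU : M.IsSub U) (A : Set M.G) : M.hm U (A ∩ M.expSub U) = M.hm U A := by
  rw [hm_apply, hm_apply, preimage_inter, M.hma_pre hU, lebU_inter]

theorem hm_mul_left (hU : M.IsSub U) {u : M.G} (hu : u ∈ M.expSub U) : MeasurePreserving (fun g => u * g) (M.hm U) (M.hm U) := by
  obtain ⟨X, hX, rfl⟩ := (M.mem_expSub hU).1 hu
  exact (M.hma_exp U).of_semiconj (M.lebU_bch_left hU hX) (fun Y => (M.exp_bch X Y).symm) (measurable_const_mul _)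

theorem hm_mul_right (hU : M.IsSub U) {u : M.G} (hu : u ∈ M.expSub U) : MeasurePreserving (fun g => g * u) (M.hm U) (M.hm U) := by
  obtain ⟨X, hX, rfl⟩ := (M.mem_expSub hU).1 hu
  exact (M.hma_exp U).of_semiconj (M.lebU_bch_right hU hX) (fun Y => (M.exp_bch Y X).symm) (measurable_mul_const _)

theorem hm_inv (U : Submodule ℝ (V h)) : MeasurePreserving (fun g : M.G => g⁻¹) (M.hm U) (M.hm U) := by
  exact (M.hma_exp U).of_semiconj (lebU_neg U) (fun Y => M.exp_neg Y) measurable_inv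

/-- arbitrary sets: `MeasurePreserving.measure_preimage_equiv` -/
theorem hm_image_left (hU : M.IsSub U) {u : M.G} (hu : u ∈ M.expSub U) (A : Set M.G) : M.hm U ((fun g => u * g) '' A) = M.hm U A := by
  rw [Set.image_mul_left]
  exact (M.hm_mul_left hU (inv_mem hu)).measure_preimage_emb (measurableEmbedding_mulLeft _) A

theorem hm_image_right (hU : M.IsSub U) {u : M.G} (hu : u ∈ M.expSub U) (A : Set M.G) : M.hm U ((fun g => g * u) '' A) = M.hm U A := by
  rw [Set.image_mul_right]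
  exact (M.hm_mul_right hU (inv_mem hu)).measure_preimage_emb (measurableEmbedding_mulRight _) A

/-- `Ad g` maps `U` onto `U` (finite dimension), so `exp ⁻¹' (g A g⁻¹) ∩ U = Ad g '' (exp ⁻¹' A ∩ U)`; `lebU_image` -/
theorem hm_conj {g : M.G} (hg : ∀ X ∈ U, M.Ad g X ∈ U) (A : Set M.G) :
    M.hm U ((fun x => g * x * g⁻¹) '' A) = ENNReal.ofReal |LinearMap.det ((M.Ad g).restrict hg)| * M.hm U A := by
  have inj : Function.Injective (M.Ad g) := Function.LeftInverse.injective (M.Ad_inv_Ad g)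
  have sur : Function.Surjective ((M.Ad g).restrict hg) :=
    LinearMap.injective_iff_surjective.1 fun X Y e => Subtype.ext (inj (congrArg Subtype.val e))
  have e : M.exp ⁻¹' ((fun x => g * x * g⁻¹) '' A) ∩ U = M.Ad g '' (M.exp ⁻¹' A ∩ U) := by
    ext X
    constructor
    · rintro ⟨⟨x, hx, e⟩, hX⟩
      obtain ⟨Y, hY⟩ := sur ⟨X, hX⟩
      have hY : M.Ad g Y = X := congrArg Subtype.val hY
      refine ⟨Y, ⟨?_, Y.2⟩, hY⟩
      rw [← hY, ← M.conj] at e
      have e' : x = M.exp Y := by simpa using e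
      rwa [mem_preimage, ← e']
    · rintro ⟨Y, ⟨hY, hYU⟩, rfl⟩
      exact ⟨⟨_, hY, M.conj g Y⟩, hg Y hYU⟩
  rw [hm_apply, hm_apply, ← lebU_inter, e, lebU_image U hg inter_subset_right, lebU_inter]

theorem hm_unit_ne_zero (U : Submodule ℝ (V h)) : M.hm U (M.exp '' (Metric.closedBall 0 1 ∩ U)) ≠ 0 := by
  rw [hm_exp, lebU_inter]
  exact (lebU_ball_pos U one_pos).ne'

theorem hm_ball_ne_top (U : Submodule ℝ (V h)) (n : ℕ) : M.hm U (M.ball n) ≠ ⊤ := (M.isCompact_ball n).measure_lt_top.ne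

theorem isSub_W_zero : M.IsSub (M.W 0) := fun X hX Y hY => by
  have := M.gr.br_W 0 0 X hX Y hY
  rwa [add_zero] at this

theorem par_emb : MeasurableEmbedding M.par := M.chartHomeo.symm.measurableEmbedding

theorem hC_apply (A : Set M.G) : M.hC A = ((lebU (M.W 0)).prod (Measure.count : Measure (Fin k → ℤ))) (M.par ⁻¹' A) :=
  M.par_emb.map_apply _ _

theorem vb_par : MeasurePreserving M.par ((lebU (M.W 0)).prod (Measure.count : Measure (Fin k → ℤ))) M.hC :=
  ⟨M.continuous_par.measurable, rfl⟩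

theorem lintegral_hC {f : M.G → ℝ≥0∞} (hf : Measurable f) :
    ∫⁻ g, f g ∂M.hC = ∑' a : Fin k → ℤ, ∫⁻ X, f (M.exp X * M.sec a) ∂lebU (M.W 0) := by
  rw [← M.vb_par.lintegral_comp hf,
    lintegral_prod_symm' (fun p => f (M.par p)) (hf.comp M.continuous_par.measurable), lintegral_count]
  rfl

theorem hC_compl : M.hC (M.C : Set M.G)ᶜ = 0 := by
  have e : M.par ⁻¹' (M.C : Set M.G)ᶜ = ((M.W 0 : Set (V h))ᶜ) ×ˢ (univ : Set (Fin k → ℤ)) := by
    ext p
    simp only [mem_preimage, mem_compl_iff, SetLike.mem_coe, M.mem_C, M.lgm_par, mem_prod, mem_univ, and_true]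
  rw [hC_apply, e, Measure.prod_prod, lebU_compl, zero_mul]

instance : IsFiniteMeasureOnCompacts M.hC := by
  have : IsFiniteMeasureOnCompacts (Measure.count : Measure (Fin k → ℤ)) :=
    ⟨fun K hK => Measure.count_apply_lt_top.2 hK.finite_of_discrete⟩
  refine ⟨fun K hK => ?_⟩
  rw [hC_apply]
  exact (M.chartHomeo.symm.isCompact_preimage.2 hK).measure_lt_top

instance : SigmaFinite M.hC := inferInstance

/-- arbitrary `s` (`Measure.prod_prod`) -/
theorem hC_par (s : Set (V h)) (A : Finset (Fin k → ℤ)) :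
    M.hC (M.par '' (s ×ˢ (A : Set (Fin k → ℤ)))) = A.card * lebU (M.W 0) s := by
  rw [hC_apply, preimage_image_eq _ M.par_emb.injective, Measure.prod_prod, Measure.count_apply_finset, mul_comm]

theorem vb_Ad {g : M.G} (hg : g ∈ M.C) : MeasurePreserving (M.Ad g) (lebU (M.W 0)) (lebU (M.W 0)) := by
  have hU : ∀ g ∈ M.C, ∀ X ∈ M.W 0, M.Ad g X ∈ M.W 0 := fun g hg X hX => M.gr.C_W g hg 0 X hX
  have hm : Measurable (M.Ad g) := (M.Ad g).continuous_of_finiteDimensional.measurable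
  refine ⟨hm, Measure.ext fun A hA => ?_⟩
  have e : M.Ad g ⁻¹' A ∩ M.W 0 = M.Ad g⁻¹ '' (A ∩ M.W 0) := by
    ext X
    constructor
    · rintro ⟨h1, h2⟩
      exact ⟨M.Ad g X, ⟨h1, hU g hg X h2⟩, M.Ad_inv_Ad g X⟩
    · rintro ⟨Y, ⟨h1, h2⟩, rfl⟩
      exact ⟨by rw [mem_preimage, M.Ad_Ad_inv]; exact h1, hU _ (M.C.inv_mem hg) Y h2⟩
  rw [Measure.map_apply hm hA, ← lebU_inter, e, lebU_image _ (hU _ (M.C.inv_mem hg)) inter_subset_right,
    M.abs_det_of_le_W hU le_rfl (M.C.inv_mem hg), ENNReal.ofReal_one, one_mul, lebU_inter]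

theorem vb_slice {f : M.G → ℝ≥0∞} (hf : Measurable f) {g : M.G} (hg : g ∈ M.C) :
    ∫⁻ X, f (M.exp X * g) ∂lebU (M.W 0) = ∫⁻ X, f (M.exp X * M.sec (M.tv g)) ∂lebU (M.W 0) := by
  rw [← (M.lebU_bch_right M.isSub_W_zero (M.mem_C.1 hg)).lintegral_comp (M.apivolb_meas hf (M.sec (M.tv g)))]
  refine lintegral_congr fun X => ?_
  rw [← M.exp_bch, mul_assoc, M.exp_lgm]

theorem vb_slice_Ad {f : M.G → ℝ≥0∞} (hf : Measurable f) {u g : M.G} (hu : u ∈ M.C) (hg : g ∈ M.C) :
    ∫⁻ X, f (M.exp (M.Ad u X) * g) ∂lebU (M.W 0) = ∫⁻ X, f (M.exp X * M.sec (M.tv g)) ∂lebU (M.W 0) := by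
  rw [← M.vb_slice hf hg]
  exact (M.vb_Ad hu).lintegral_comp (M.apivolb_meas hf g)

/-- as for `volume` in A/ApiVol, with `lebU_bch_left/right`, `lebU_image`, `abs_det_of_le_W` -/
theorem hC_mul_left {c : M.G} (hc : c ∈ M.C) : MeasurePreserving (fun g => c * g) M.hC M.hC := by
  have hg : Measurable fun x : M.G => c * x := (continuous_const.mul continuous_id).measurable
  refine ⟨hg, Measure.ext_of_lintegral _ fun f hf => ?_⟩
  rw [lintegral_map hf hg, M.lintegral_hC (f := fun x => f (c * x)) (hf.comp hg), M.lintegral_hC hf,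
    ← (Equiv.addLeft (M.tv c)).tsum_eq fun a => ∫⁻ X, f (M.exp X * M.sec a) ∂lebU (M.W 0)]
  refine tsum_congr fun a => ?_
  have := M.vb_slice_Ad hf hc (M.C.mul_mem hc (M.sec_mem a))
  rw [M.tv_mul, M.tv_sec] at this
  refine Eq.trans (lintegral_congr fun X => ?_) this
  rw [← mul_assoc, ← mul_assoc, M.mul_exp]

theorem hC_mul_right {c : M.G} (hc : c ∈ M.C) : MeasurePreserving (fun g => g * c) M.hC M.hC := by
  have hg : Measurable fun x : M.G => x * c := (continuous_id.mul continuous_const).measurable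
  refine ⟨hg, Measure.ext_of_lintegral _ fun f hf => ?_⟩
  rw [lintegral_map hf hg, M.lintegral_hC (f := fun x => f (x * c)) (hf.comp hg), M.lintegral_hC hf,
    ← (Equiv.addRight (M.tv c)).tsum_eq fun a => ∫⁻ X, f (M.exp X * M.sec a) ∂lebU (M.W 0)]
  refine tsum_congr fun a => ?_
  have := M.vb_slice hf (M.C.mul_mem (M.sec_mem a) hc)
  rw [M.tv_mul, M.tv_sec] at this
  refine Eq.trans (lintegral_congr fun X => ?_) this
  rw [mul_assoc]

theorem hC_inv : MeasurePreserving (fun g : M.G => g⁻¹) M.hC M.hC := by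
  have hg : Measurable fun x : M.G => x⁻¹ := continuous_inv.measurable
  refine ⟨hg, Measure.ext_of_lintegral _ fun f hf => ?_⟩
  rw [lintegral_map hf hg, M.lintegral_hC (f := fun x => f x⁻¹) (hf.comp hg), M.lintegral_hC hf,
    ← (Equiv.neg (Fin k → ℤ)).tsum_eq fun a => ∫⁻ X, f (M.exp X * M.sec a)⁻¹ ∂lebU (M.W 0)]
  refine tsum_congr fun a => ?_
  have hs := M.C.inv_mem (M.sec_mem (-a))
  have := M.vb_slice_Ad hf hs hs
  rw [M.tv_inv, M.tv_sec, neg_neg] at this
  have hm : Measurable fun X => f (M.exp (M.Ad (M.sec (-a))⁻¹ X) * (M.sec (-a))⁻¹) :=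
    (M.apivolb_meas hf _).comp (M.Ad _).continuous_of_finiteDimensional.measurable
  rw [← this, ← (lebU_neg (M.W 0)).lintegral_comp hm]
  refine lintegral_congr fun X => ?_
  rw [← M.mul_exp, M.exp_neg, mul_inv_rev]
  rfl

theorem hC_image_left {c : M.G} (hc : c ∈ M.C) (A : Set M.G) : M.hC ((fun g => c * g) '' A) = M.hC A := by
  rw [image_mul_left]
  exact MeasurePreserving.measure_preimage_equiv (f := (Homeomorph.mulLeft c⁻¹).toMeasurableEquiv)
    (M.hC_mul_left (M.C.inv_mem hc)) A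

theorem hC_image_right {c : M.G} (hc : c ∈ M.C) (A : Set M.G) : M.hC ((fun g => g * c) '' A) = M.hC A := by
  rw [image_mul_right]
  exact MeasurePreserving.measure_preimage_equiv (f := (Homeomorph.mulRight c⁻¹).toMeasurableEquiv)
    (M.hC_mul_right (M.C.inv_mem hc)) A

end Model

end Crest.Agent.R182
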