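import Crest.Agent.R182.V.Defs
import Crest.Agent.R182.A.Basis

/-! R182/V/Leb (owner helper36): Lebesgue measure of a subspace. -/

set_option autoImplicit false
set_option linter.unusedVariables false
set_option linter.unusedSectionVars false
open Set Filter Topology MeasureTheory Crest.GroupTheory
open scoped Pointwise commutatorElement ENNReal

noncomputable section
namespace Crest.Agent.R182

section Leb
variable {h : ℕ} (U : Submodule ℝ (V h))

theorem lebU_emb : MeasurableEmbedding ((↑) : U → V h) :=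
  MeasurableEmbedding.subtype_coe U.closed_of_finiteDimensional.measurableSet

theorem lebU_apply (A : Set (V h)) : lebU U A = (Measure.addHaar : Measure U) ((↑) ⁻¹' A) := (lebU_emb U).map_apply _ _

theorem lebU_inter (A : Set (V h)) : lebU U (A ∩ U) = lebU U A := by
  rw [lebU_apply, lebU_apply]
  congr 1
  ext X
  simp

theorem lebU_compl : lebU U (U : Set (V h))ᶜ = 0 := by
  rw [lebU_apply]
  have : ((↑) : U → V h) ⁻¹' (U : Set (V h))ᶜ = ∅ := by
    ext X
    simp
  rw [this, measure_empty]

theorem lebU_ae : ∀ᵐ X ∂lebU U, X ∈ U := lebU_compl U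

instance : IsFiniteMeasureOnCompacts (lebU U) := by
  refine ⟨fun K hK => ?_⟩
  rw [lebU_apply]
  exact (U.closed_of_finiteDimensional.isClosedEmbedding_subtypeVal.isCompact_preimage hK).measure_lt_top

instance : SigmaFinite (lebU U) := inferInstance

theorem lebU_ball_pos {r : ℝ} (hr : 0 < r) : 0 < lebU U (Metric.closedBall 0 r) := by
  rw [lebU_apply]
  refine lt_of_lt_of_le (Metric.measure_ball_pos (Measure.addHaar : Measure U) 0 hr) (measure_mono fun X hX => ?_)
  exact mem_closedBall_zero_iff.2 (mem_ball_zero_iff.1 hX).le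

/-- `Measure.addHaar_image_linearMap` -/
theorem lebU_image {f : V h →ₗ[ℝ] V h} (hf : ∀ X ∈ U, f X ∈ U) {A : Set (V h)} (hA : A ⊆ U) :
    lebU U (f '' A) = ENNReal.ofReal |LinearMap.det (f.restrict hf)| * lebU U A := by
  rw [lebU_apply, lebU_apply, ← Measure.addHaar_image_linearMap]
  congr 1
  ext X
  constructor
  · rintro ⟨Y, hY, e⟩
    exact ⟨⟨Y, hA hY⟩, hY, Subtype.ext e⟩
  · rintro ⟨Y, hY, rfl⟩
    exact ⟨Y, hY, rfl⟩

theorem lebU_smul {t : ℝ} (ht : t ≠ 0) (A : Set (V h)) :
    lebU U (t • A) = ENNReal.ofReal (|t| ^ Module.finrank ℝ U) * lebU U A := by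
  rw [lebU_apply, lebU_apply, ← abs_pow, ← Measure.addHaar_smul]
  congr 1
  ext X
  rw [mem_preimage, mem_smul_set_iff_inv_smul_mem₀ ht, mem_smul_set_iff_inv_smul_mem₀ ht]
  rfl

theorem lebU_closedBall {r : ℝ} (hr : 0 < r) :
    lebU U (Metric.closedBall 0 r) = ENNReal.ofReal (r ^ Module.finrank ℝ U) * lebU U (Metric.closedBall 0 1) := by
  have := lebU_smul U hr.ne' (Metric.closedBall 0 1)
  rwa [_root_.smul_closedBall _ _ zero_le_one, smul_zero, Real.norm_eq_abs, abs_of_pos hr, mul_one] at this

theorem lebU_add {X : V h} (hX : X ∈ U) : MeasurePreserving (fun Y => X + Y) (lebU U) (lebU U) := by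
  have hm : Measurable fun Y : V h => X + Y := measurable_const_add X
  have h1 : Measurable ((↑) : U → V h) := measurable_subtype_coe
  refine ⟨hm, ?_⟩
  unfold lebU
  rw [Measure.map_map hm h1]
  conv_rhs => rw [← map_add_left_eq_self (Measure.addHaar : Measure U) (⟨X, hX⟩ : U)]
  rw [Measure.map_map h1 (measurable_const_add _)]
  rfl

theorem lebU_neg : MeasurePreserving (fun Y : V h => -Y) (lebU U) (lebU U) := by
  have hm : Measurable fun Y : V h => -Y := measurable_neg
  have h1 : Measurable ((↑) : U → V h) := measurable_subtype_coe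
  refine ⟨hm, ?_⟩
  unfold lebU
  rw [Measure.map_map hm h1]
  conv_rhs => rw [← Measure.map_neg_eq_self (Measure.addHaar : Measure U)]
  rw [Measure.map_map h1 measurable_neg]
  rfl

/-- uniqueness of Haar measure -/
theorem lebU_top : ∃ a : ℝ≥0∞, a ≠ 0 ∧ a ≠ ⊤ ∧ lebU (⊤ : Submodule ℝ (V h)) = a • volume := by
  let e : (⊤ : Submodule ℝ (V h)) ≃L[ℝ] V h := Submodule.topEquiv.toContinuousLinearEquiv
  have hH : (lebU (⊤ : Submodule ℝ (V h))).IsAddHaarMeasure :=
    e.isAddHaarMeasure_map (Measure.addHaar : Measure (⊤ : Submodule ℝ (V h)))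
  refine ⟨Measure.addHaarScalarFactor (lebU (⊤ : Submodule ℝ (V h))) volume, ?_, ENNReal.coe_ne_top, ?_⟩
  · exact ENNReal.coe_ne_zero.2 (Measure.addHaarScalarFactor_pos_of_isAddHaarMeasure _ _).ne'
  · exact Measure.isAddLeftInvariant_eq_smul _ _

end Leb

/-- Transport to `V d` by a linear equivalence, choose an adapted basis (`exists_adapted` with `k = 0`, `W = fun _ => ⊤`), apply
`measurePreserving_of_tri`; the image of `μ` is a multiple of `volume` (uniqueness of Haar measure). -/
theorem measurePreserving_of_flag {E : Type} [NormedAddCommGroup E] [NormedSpace ℝ E] [FiniteDimensional ℝ E] [MeasurableSpace E]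
    [BorelSpace E] (μ : Measure E) [μ.IsAddHaarMeasure] (F : ℕ → Submodule ℝ E) (hF : Antitone F) (h0 : F 0 = ⊤) {m : ℕ}
    (hm : F m = ⊥) {f : E → E} (hf : Continuous f) (ht : ∀ i X X', X - X' ∈ F i → f X - f X' - (X - X') ∈ F (i + 1)) :
    MeasurePreserving f μ μ := by
  let L : V (Module.finrank ℝ E) ≃ₗ[ℝ] E := (Module.finBasis ℝ E).equivFun.symm
  obtain ⟨e, dep, -, he, -⟩ := exists_adapted (k := 0) (m := m) (fun _ => ⊤) (iSupIndep_subsingleton _)
    (fun i => (F i).comap L.toLinearMap) (fun i j hij => Submodule.comap_mono (hF hij)) (by simp [h0])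
    (by rw [hm, Submodule.comap_bot, LinearEquiv.ker]) fun i => le_iSup_of_le 0 (le_inf le_rfl le_top)
  let A : V (Module.finrank ℝ E) ≃L[ℝ] E := (e.trans L).toContinuousLinearEquiv
  have hA : ∀ i X, A X ∈ F i ↔ ∀ j, dep j < i → X j = 0 := he
  have hg : MeasurePreserving fun X => A.symm (f (A X)) := by
    refine measurePreserving_of_tri dep (by fun_prop) fun j X X' hX => ?_
    have h1 : A X - A X' ∈ F (dep j) := by
      rw [← map_sub, hA]
      exact fun l hl => sub_eq_zero.2 (hX l hl)
    have h2 := ht _ _ _ h1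
    have h3 : f (A X) - f (A X') - (A X - A X') = A (A.symm (f (A X)) - A.symm (f (A X')) - (X - X')) := by
      simp
    rw [h3, hA] at h2
    have h4 := h2 j (Nat.lt_succ_self _)
    simp only [Pi.sub_apply] at h4
    linarith
  have hAm : MeasurePreserving A volume (Measure.map A volume) := ⟨A.continuous.measurable, rfl⟩
  have hAs : MeasurePreserving A.symm (Measure.map A volume) volume :=
    MeasurePreserving.symm A.toHomeomorph.toMeasurableEquiv hAm
  have hf' : MeasurePreserving f (Measure.map A volume) (Measure.map A volume) := by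
    convert hAm.comp (hg.comp hAs) using 1
    funext x
    simp
  rw [Measure.isAddLeftInvariant_eq_smul μ (Measure.map A volume)]
  exact hf'.smul_measure _

namespace Core
variable {h k : ℕ} (c : Core h k) {U : Submodule ℝ (V h)}

/-- `measurePreserving_of_flag` on `U` with the flag `(F i).comap U.subtype` -/
theorem lebU_of_flag {f : V h → V h} (hf : Continuous f) (hU : ∀ X ∈ U, f X ∈ U)
    (ht : ∀ i, ∀ X ∈ U, ∀ X' ∈ U, X - X' ∈ c.F i → f X - f X' - (X - X') ∈ c.F (i + 1)) :
    MeasurePreserving f (lebU U) (lebU U) := by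

  have key : MeasurePreserving (fun X : U => (⟨f X, hU X X.2⟩ : U)) (Measure.addHaar : Measure U) Measure.addHaar := by
    refine measurePreserving_of_flag (Measure.addHaar : Measure U) (fun i => (c.F i).comap U.subtype)
      (fun i j hij => Submodule.comap_mono (c.F_anti hij)) (by simp [c.F_zero]) (m := c.cl + 1) ?_ ?_ ?_
    · simp only [c.F_cl]
      exact Submodule.ker_subtype U
    · exact (hf.comp continuous_subtype_val).subtype_mk _
    · intro i X X' h
      exact ht i X X.2 X' X'.2 h
  refine ⟨hf.measurable, ?_⟩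
  have h1 : Measurable ((↑) : U → V h) := measurable_subtype_coe
  unfold lebU
  rw [Measure.map_map hf.measurable h1]
  conv_rhs => rw [← key.map_eq]
  rw [Measure.map_map h1 key.measurable]
  rfl


/-- `bch_sub_bch` -/
theorem lebU_bch_left (hU : c.IsSub U) {X : V h} (hX : X ∈ U) : MeasurePreserving (fun Y => c.bch X Y) (lebU U) (lebU U) := by

  refine c.lebU_of_flag (c.continuous_bch.comp (continuous_const.prodMk continuous_id)) (fun Y hY => IsSub.bch_mem c hU hX hY) ?_
  intro i Y _ Y' _ h
  have := c.bch_sub_bch (X := X) (X' := X) (by simp) h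
  simpa using this


theorem lebU_bch_right (hU : c.IsSub U) {Y : V h} (hY : Y ∈ U) : MeasurePreserving (fun X => c.bch X Y) (lebU U) (lebU U) := by

  refine c.lebU_of_flag (c.continuous_bch.comp (continuous_id.prodMk continuous_const)) (fun X hX => IsSub.bch_mem c hU hX hY) ?_
  intro i X _ X' _ h
  have := c.bch_sub_bch (Y := Y) (Y' := Y) h (by simp)
  simpa using this


end Core

end Crest.Agent.R182
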